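import Vale.Agent.P022.H567.Gch

/-! Block [POWC] of P022-CFT (literal `POWCStmt` of `H567/Gch.lean`). -/

namespace Vale.Agent.P022.H851

open Finset NumberField

theorem mul_dvd_pow_sub_one {R : Type*} [CommRing R] {m : ℕ} {c α : R} (hm : (m : R) ∣ α - 1)
    (hc : c ∣ α - 1) : c * m ∣ α ^ m - 1 := by
  have h1 : (∑ i ∈ range m, α ^ i) * (α - 1) = α ^ m - 1 := geom_sum_mul α m
  have h2 : (m : R) ∣ ∑ i ∈ range m, α ^ i := by
    have h3 : (m : R) ∣ ∑ i ∈ range m, (α ^ i - 1) := by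
      apply Finset.dvd_sum
      intro i _
      have h := sub_dvd_pow_sub_pow α 1 i
      rw [one_pow] at h
      exact hm.trans h
    have h4 : ∑ i ∈ range m, α ^ i = ∑ i ∈ range m, (α ^ i - 1) + m := by
      rw [Finset.sum_sub_distrib]
      simp
    rw [h4]
    exact dvd_add h3 dvd_rfl
  rw [← h1, mul_comm]
  exact mul_dvd_mul h2 hc

theorem pow_iter {R : Type*} [CommRing R] {m : ℕ} {c α : R} (hc : c * m ∣ α - 1) (i : ℕ) :
    c * m * (m : R) ^ i ∣ α ^ m ^ i - 1 := by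
  induction i with
  | zero => simpa using hc
  | succ i ih =>
    have h1 : (m : R) ∣ α ^ m ^ i - 1 := ((dvd_mul_left _ _).trans (dvd_mul_right _ _)).trans ih
    have h2 := mul_dvd_pow_sub_one h1 ih
    rw [← pow_mul, ← pow_succ] at h2
    rwa [pow_succ, ← mul_assoc]

theorem exists_dvd_pow {m m' : ℕ} (hm : m ≠ 0) (hm' : m' ≠ 0)
    (h : ∀ p : ℕ, p.Prime → p ∣ m' → p ∣ m) : m' ∣ m ^ m' := by
  rw [← Nat.factorization_le_iff_dvd hm' (pow_ne_zero _ hm)]
  intro p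
  rw [Nat.factorization_pow, Finsupp.smul_apply, smul_eq_mul]
  by_cases hp : p.Prime ∧ p ∣ m'
  · have h1 : 1 ≤ m.factorization p := hp.1.factorization_pos_of_dvd hm (h p hp.1 hp.2)
    have h2 : m'.factorization p < m' := Nat.factorization_lt p hm'
    nlinarith
  · have : m'.factorization p = 0 := by
      by_contra hne
      exact hp ⟨Nat.prime_of_mem_primeFactors (by
        rw [← Nat.support_factorization]; exact Finsupp.mem_support_iff.2 hne),
        Nat.dvd_of_factorization_pos hne⟩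
    omega

/-- Block [POWC]. -/
theorem POWC : C.POWCStmt := by
  intro K _ _ m m' k hm hm' h
  have hm0 : m ≠ 0 := by
    rintro rfl
    simp at hm
  have hm0' : m' ≠ 0 := by
    rintro rfl
    simp at hm'
  refine ⟨m ^ m', hm.pow, ?_⟩
  intro α hα
  have h1 : ((2 : 𝓞 K) ^ k * (m : 𝓞 K)) ∣ α - 1 := by
    have : ((2 ^ k * m : ℕ) : 𝓞 K) = (2 : 𝓞 K) ^ k * (m : 𝓞 K) := by push_cast; ring
    rwa [this] at hα
  have h2 := pow_iter h1 m'
  refine dvd_trans ?_ h2
  have h3 : (m' : 𝓞 K) ∣ (m : 𝓞 K) ^ m' := by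
    obtain ⟨d, hd⟩ := exists_dvd_pow hm0 hm0' h
    exact ⟨(d : 𝓞 K), by exact_mod_cast congrArg (Nat.cast : ℕ → 𝓞 K) hd⟩
  have h4 : ((2 ^ k * m' : ℕ) : 𝓞 K) = (2 : 𝓞 K) ^ k * (m' : 𝓞 K) := by push_cast; ring
  rw [h4, mul_assoc]
  exact mul_dvd_mul dvd_rfl (h3.trans (dvd_mul_left _ _))

end Vale.Agent.P022.H851
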