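import Vale.Agent.P022.H567.Gch

/-! Block [TPQ] of P022-CFT (literal `TPQStmt` of `H567/Gch.lean`). -/

namespace Vale.Agent.P022.H851

open Finset NumberField

/-- the subgroup of the elements close to `1` -/
def Hs (E : Type) [NontriviallyNormedField E] [IsUltrametricDist E] (ε : ℝ) (hε : 0 < ε) :
    Subgroup (C.UE E) where
  carrier := {x | ‖((x : Eˣ) : E) - 1‖ < ε}
  mul_mem' {x y} hx hy := by
    change ‖(((x * y : C.UE E) : Eˣ) : E) - 1‖ < ε
    have hy1 : ‖((y : Eˣ) : E)‖ = 1 := y.2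
    have h : (((x * y : C.UE E) : Eˣ) : E) - 1 =
        (((x : Eˣ) : E) - 1) * ((y : Eˣ) : E) + (((y : Eˣ) : E) - 1) := by
      rw [Subgroup.coe_mul, Units.val_mul]
      ring
    rw [h]
    refine (IsUltrametricDist.norm_add_le_max _ _).trans_lt (max_lt ?_ hy)
    rw [norm_mul, hy1, mul_one]
    exact hx
  one_mem' := by
    change ‖(((1 : C.UE E) : Eˣ) : E) - 1‖ < ε
    simpa using hε
  inv_mem' {x} hx := by
    change ‖(((x⁻¹ : C.UE E) : Eˣ) : E) - 1‖ < ε
    have hx1 : ‖((x : Eˣ) : E)‖ = 1 := x.2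
    have h : (((x⁻¹ : C.UE E) : Eˣ) : E) - 1 =
        -((((x : Eˣ) : E) - 1) * (((x : Eˣ) : E))⁻¹) := by
      have h0 : ((x : Eˣ) : E) ≠ 0 := Units.ne_zero _
      rw [InvMemClass.coe_inv, Units.val_inv_eq_inv_val]
      field_simp
      ring
    rw [h, norm_neg, norm_mul, norm_inv, hx1, inv_one, mul_one]
    exact hx

theorem finite_quot (E : Type) [NontriviallyNormedField E] [NormedAlgebra ℚ_[2] E]
    [IsUltrametricDist E] [FiniteDimensional ℚ_[2] E] (ε : ℝ) (hε : 0 < ε) :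
    Finite (C.UE E ⧸ Hs E ε hε) := by
  classical
  have : ProperSpace E := FiniteDimensional.proper ℚ_[2] E
  obtain ⟨t, ht, htf, hcov⟩ := (isCompact_sphere (0 : E) 1).finite_cover_balls hε
  have hnorm : ∀ x : t, ‖(x : E)‖ = 1 := fun x => by simpa using ht x.2
  let u : t → C.UE E := fun x => ⟨Units.mk0 (x : E) (by
    intro h
    have := hnorm x
    rw [h, norm_zero] at this
    exact zero_ne_one this), hnorm x⟩
  have hu : ∀ x : t, (((u x : C.UE E) : Eˣ) : E) = x := fun x => rfl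
  have : Finite t := htf
  apply Finite.of_surjective (fun x : t => (QuotientGroup.mk (u x) : C.UE E ⧸ Hs E ε hε))
  intro q
  obtain ⟨y, rfl⟩ := QuotientGroup.mk_surjective q
  have hy1 : ‖((y : Eˣ) : E)‖ = 1 := y.2
  have hy : ((y : Eˣ) : E) ∈ Metric.sphere (0 : E) 1 := by simpa using hy1
  obtain ⟨x, hx, hxy⟩ := Set.mem_iUnion₂.1 (hcov hy)
  refine ⟨⟨x, hx⟩, ?_⟩
  apply QuotientGroup.eq.2
  change ‖((((u ⟨x, hx⟩)⁻¹ * y : C.UE E) : Eˣ) : E) - 1‖ < ε
  rw [Subgroup.coe_mul, Units.val_mul, InvMemClass.coe_inv, Units.val_inv_eq_inv_val, hu]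
  have hx1 : ‖x‖ = 1 := hnorm ⟨x, hx⟩
  have hx0 : x ≠ 0 := by
    rintro rfl
    rw [norm_zero] at hx1
    exact zero_ne_one hx1
  have h : x⁻¹ * ((y : Eˣ) : E) - 1 = x⁻¹ * (((y : Eˣ) : E) - x) := by
    field_simp
  change ‖x⁻¹ * ((y : Eˣ) : E) - 1‖ < ε
  rw [h, norm_mul, norm_inv, hx1, inv_one, one_mul, ← dist_eq_norm]
  exact hxy

/-- Block [TPQ]. -/
theorem TPQ : C.TPQStmt := by
  intro E _ _ _ _ ε hε
  have := finite_quot E ε hε
  obtain ⟨ι, hι, n, hn, ⟨e⟩⟩ :=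
    CommGroup.equiv_prod_multiplicative_zmod_of_finite (C.UE E ⧸ Hs E ε hε)
  let k := Fintype.equivFin ι
  let l : ∀ i : Fin (Fintype.card ι), C.UE E →* Multiplicative (ZMod (n (k.symm i))) := fun i =>
    (Pi.evalMonoidHom (fun i => Multiplicative (ZMod (n i))) (k.symm i)).comp
      (e.toMonoidHom.comp (QuotientGroup.mk' (Hs E ε hε)))
  have hl : ∀ i x, l i x = e (QuotientGroup.mk x) (k.symm i) := fun i x => rfl
  refine ⟨Fintype.card ι, fun i => n (k.symm i), l, ε, hε,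
    fun i => Nat.lt_trans Nat.zero_lt_one (hn (k.symm i)), ?_, ?_⟩
  · intro i x hx
    rw [hl]
    have h1 : (QuotientGroup.mk x : C.UE E ⧸ Hs E ε hε) = 1 :=
      (QuotientGroup.eq_one_iff x).2 hx
    rw [h1, map_one]
    rfl
  · intro x hx
    have h1 : e (QuotientGroup.mk x) = 1 := by
      funext i
      obtain ⟨j, rfl⟩ := k.symm.surjective i
      exact (hl j x).symm.trans (hx j)
    have h2 : (QuotientGroup.mk x : C.UE E ⧸ Hs E ε hε) = 1 := by
      rwa [MulEquiv.map_eq_one_iff] at h1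
    exact (QuotientGroup.eq_one_iff x).1 h2

end Vale.Agent.P022.H851
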