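import Mathlib

/-! Block [E] of P022-CFT: characters of `l`-power order of `(ℤ/m)ˣ` with conductor prime to a
finite set and with values of large order at finitely many given primes. -/

namespace Vale.Agent.P022.H851

open Finset
open scoped Pointwise

/-- A primitive prime: for `x = y ^ l` and `y ≥ 2` there is a prime `q ≠ l` dividing
`1 + x + ... + x ^ (l - 1)`. -/
theorem exists_prime_dvd_sum {l : ℕ} (hl : l.Prime) {y : ℕ} (hy : 2 ≤ y) :
    ∃ q : ℕ, q.Prime ∧ q ≠ l ∧ q ∣ ∑ i ∈ range l, (y ^ l) ^ i := by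
  by_contra hcon
  push Not at hcon
  set x := y ^ l with hx
  set S := ∑ i ∈ range l, x ^ i with hS
  have hx2 : 2 ≤ x := by
    calc 2 ≤ y := hy
      _ = y ^ 1 := (pow_one y).symm
      _ ≤ y ^ l := Nat.pow_le_pow_right (by omega) hl.one_lt.le
  have hSl : l < S := by
    have h2 := hl.two_le
    calc l = ∑ i ∈ range l, 1 := by simp
      _ < ∑ i ∈ range l, x ^ i := by
        apply Finset.sum_lt_sum
        · intro i _
          exact Nat.one_le_pow _ _ (by omega)
        · exact ⟨1, by simp; omega, by simp; omega⟩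
  have hS0 : S ≠ 0 := by omega
  have hpf : ∀ q, q.Prime → q ∣ S → q = l := by
    intro q hq hqS
    by_contra hne
    exact hcon q hq hne hqS
  obtain ⟨k, hk⟩ : ∃ k, S = l ^ k := by
    refine ⟨S.primeFactorsList.length, ?_⟩
    refine (Nat.eq_prime_pow_of_unique_prime_dvd hS0 ?_)
    intro d hd hdS
    exact hpf d hd hdS
  have hk2 : 2 ≤ k := by
    by_contra h
    have : k = 0 ∨ k = 1 := by omega
    rcases this with h | h
    · rw [h, pow_zero] at hk
      have := hl.two_le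
      omega
    · rw [h, pow_one] at hk
      omega
  have hl2 : l ^ 2 ∣ S := hk ▸ pow_dvd_pow l hk2
  have hlS : l ∣ S := (dvd_pow_self l two_ne_zero).trans hl2
  have := Fact.mk hl
  -- `x = 1` mod `l`
  have h1 : (x : ZMod l) = 1 := by
    have hS' : ((∑ i ∈ range l, x ^ i : ℕ) : ZMod l) = 0 := by
      rw [← hS]
      exact (ZMod.natCast_eq_zero_iff S l).2 hlS
    have h3 : (∑ i ∈ range l, (x : ZMod l) ^ i) * ((x : ZMod l) - 1) = (x : ZMod l) ^ l - 1 :=
      geom_sum_mul _ _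
    push_cast at hS'
    rw [hS', zero_mul, ZMod.pow_card] at h3
    exact (sub_eq_zero.1 h3.symm)
  have h2 : (y : ZMod l) = 1 := by
    rw [hx] at h1
    push_cast at h1
    rwa [ZMod.pow_card] at h1
  have h3 : (l : ℤ) ∣ (y : ℤ) - 1 := by
    rw [← ZMod.intCast_zmod_eq_zero_iff_dvd _ l]
    push_cast
    rw [h2, sub_self]
  have h4 : (l : ℤ) ^ 2 ∣ (x : ℤ) - 1 := by
    have := dvd_sub_pow_of_dvd_sub (R := ℤ) (p := l) (a := (y : ℤ)) (b := 1) h3 1
    simp only [pow_one, one_pow] at this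
    rw [hx]
    push_cast
    exact this
  have h5 : (l : ℤ) ^ 2 ∣ (S : ℤ) - l := by
    have : (S : ℤ) - l = ∑ i ∈ range l, ((x : ℤ) ^ i - 1) := by
      rw [hS, Finset.sum_sub_distrib]
      simp
    rw [this]
    apply Finset.dvd_sum
    intro i _
    have h := sub_dvd_pow_sub_pow (x : ℤ) 1 i
    rw [one_pow] at h
    exact h4.trans h
  have h6 : (l : ℤ) ^ 2 ∣ (l : ℤ) := by
    have h7 : (l : ℤ) ^ 2 ∣ (S : ℤ) := by exact_mod_cast hl2
    have := dvd_sub h7 h5
    simpa using this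
  have h8 : l ^ 2 ∣ l := by exact_mod_cast h6
  have h9 := Nat.le_of_dvd hl.pos h8
  have := hl.two_le
  nlinarith

/-- For `n` large enough there is a prime `q` outside a given finite set with
`ord_q p = l ^ n`. First: for every `n ≥ 1` (`n + 1`). -/
theorem exists_prime_orderOf {l : ℕ} (hl : l.Prime) {p : ℕ} (hp : 2 ≤ p) (n : ℕ) :
    ∃ q : ℕ, q.Prime ∧ orderOf (p : ZMod q) = l ^ (n + 2) := by
  obtain ⟨q, hq, hql, hqS⟩ := exists_prime_dvd_sum hl
    (y := p ^ (l ^ n)) (by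
      calc 2 ≤ p := hp
        _ = p ^ 1 := (pow_one p).symm
        _ ≤ p ^ (l ^ n) := Nat.pow_le_pow_right (by omega) (Nat.one_le_pow _ _ hl.pos))
  refine ⟨q, hq, ?_⟩
  have := Fact.mk hl
  have := Fact.mk hq
  have hx : (p ^ (l ^ n)) ^ l = p ^ l ^ (n + 1) := by
    rw [← pow_mul, pow_succ]
  rw [hx] at hqS
  have hS' : (∑ i ∈ range l, ((p : ZMod q) ^ l ^ (n + 1)) ^ i) = 0 := by
    have := (ZMod.natCast_eq_zero_iff _ q).2 hqS
    push_cast at this
    exact this
  apply orderOf_eq_prime_pow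
  · intro h
    rw [h] at hS'
    simp only [one_pow, sum_const, card_range, nsmul_eq_mul, mul_one] at hS'
    have := (ZMod.natCast_eq_zero_iff l q).1 hS'
    exact hql ((Nat.prime_dvd_prime_iff_eq hq hl).1 this)
  · have h3 := geom_sum_mul ((p : ZMod q) ^ l ^ (n + 1)) l
    rw [hS', zero_mul] at h3
    rw [pow_succ, pow_mul]
    exact (sub_eq_zero.1 h3.symm)

/-- The prime can be taken outside a finite set, with a larger exponent. -/
theorem exists_prime_orderOf_notMem {l : ℕ} (hl : l.Prime) {p : ℕ} (hp : 2 ≤ p) (n : ℕ)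
    (T : Finset ℕ) :
    ∃ q : ℕ, q.Prime ∧ q ∉ T ∧ ∃ k, n ≤ k ∧ orderOf (p : ZMod q) = l ^ k := by
  choose q hq hord using fun k => exists_prime_orderOf hl hp k
  have hinj : Function.Injective q := by
    intro i j hij
    have h1 := hord i
    have h2 := hord j
    rw [hij] at h1
    rw [h1] at h2
    have := Nat.pow_right_injective hl.two_le h2
    omega
  obtain ⟨k, hk, hkT⟩ : ∃ k, n ≤ k ∧ q k ∉ T := by
    by_contra hcon
    push Not at hcon
    have hfin : (Set.range fun k : ℕ => q (n + k)).Finite :=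
      T.finite_toSet.subset (by
        rintro _ ⟨k, rfl⟩
        exact hcon (n + k) (by omega))
    have hinj' : Function.Injective fun k : ℕ => q (n + k) := by
      intro i j hij
      have := hinj hij
      omega
    exact Set.infinite_range_of_injective hinj' hfin
  exact ⟨q k, hq k, hkT, k + 2, by omega, hord k⟩

/-- Elements of `l`-power order: if `z ^ (l ^ j) ≠ 1` and `z ^ (l ^ e) = 1`
then `l ^ (j + 1) ∣ orderOf z`. -/
theorem pow_dvd_orderOf {M : Type*} [Monoid M] {l : ℕ} (hl : l.Prime) {z : M} {j e : ℕ}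
    (h1 : z ^ (l ^ j) ≠ 1) (h2 : z ^ (l ^ e) = 1) : l ^ (j + 1) ∣ orderOf z := by
  obtain ⟨i, _, hi⟩ := (Nat.dvd_prime_pow hl).1 (orderOf_dvd_of_pow_eq_one h2)
  rw [hi]
  apply pow_dvd_pow
  by_contra hcon
  apply h1
  apply orderOf_dvd_iff_pow_eq_one.1
  rw [hi]
  exact pow_dvd_pow l (by omega)

/-- A finite abelian group `G`, finitely many elements `g i` whose order is divisible by a high
power of `l`: a character of `G` of `l`-power order with values of large order at all `g i`. -/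
theorem exists_char_group {G ι : Type*} [CommGroup G] [Finite G] {l : ℕ} (hl : l.Prime)
    (a A : ℕ) (s : Finset ι) (hA : s.card < l ^ A) (g : ι → G)
    (hg : ∀ i ∈ s, l ^ (A + a + 2) ∣ orderOf (g i)) :
    ∃ (b : ℕ) (ψ : G →* Multiplicative (ZMod (l ^ b))), Function.Surjective ψ ∧
      (∀ x : G, x ^ 2 = 1 → ψ x = 1) ∧ ∀ i ∈ s, l ^ (a + 1) ∣ orderOf (ψ (g i)) := by
  classical
  have hN0 : Nat.card G ≠ 0 := Nat.card_pos.ne'
  obtain ⟨e, u, hu, hN⟩ := Nat.exists_eq_pow_mul_and_not_dvd hN0 l hl.ne_one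
  have hu0 : u ≠ 0 := by
    rintro rfl
    exact hu (dvd_zero l)
  let f : ι → ((G →* ℂˣ) →* ℂˣ) := fun i => MonoidHom.eval (g i ^ (2 * u * l ^ a))
  have hf : ∀ i φ, f i φ = φ (g i) ^ (2 * u * l ^ a) := fun i φ => map_pow φ (g i) _
  have hcard : ∀ (φ : G →* ℂˣ) (x : G), (φ x ^ u) ^ (l ^ e) = 1 := by
    intro φ x
    rw [← pow_mul, mul_comm, ← hN, ← map_pow, pow_card_eq_one', map_one]
  obtain ⟨φ, hφ⟩ : ∃ φ : G →* ℂˣ, ∀ i ∈ s, φ (g i) ^ (2 * u * l ^ a) ≠ 1 := by
    by_contra hcon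
    push Not at hcon
    have hcov : ⋃ i ∈ s, (1 : G →* ℂˣ) • ((f i).ker : Set (G →* ℂˣ)) = Set.univ := by
      rw [Set.eq_univ_iff_forall]
      intro φ
      obtain ⟨i, hi, h⟩ := hcon φ
      rw [Set.mem_iUnion₂]
      refine ⟨i, hi, ?_⟩
      refine ⟨φ, ?_, one_mul φ⟩
      change (f i) φ = 1
      rw [hf, h]
    obtain ⟨i, hi, hfin, hle⟩ := Subgroup.exists_index_le_card_of_leftCoset_cover hcov
    have hex : HasEnoughRootsOfUnity ℂ (Monoid.exponent G) := by
      have : NeZero (Monoid.exponent G) := ⟨Monoid.exponent_ne_zero_of_finite⟩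
      infer_instance
    have hne : g i ^ (u * l ^ (A + a + 1)) ≠ 1 := by
      intro h
      have h1 := (hg i hi).trans (orderOf_dvd_of_pow_eq_one h)
      rw [show l ^ (A + a + 2) = l * l ^ (A + a + 1) by ring] at h1
      exact hu (Nat.dvd_of_mul_dvd_mul_right (pow_pos hl.pos _) h1)
    obtain ⟨χ, hχ⟩ := CommGroup.exists_apply_ne_one_of_hasEnoughRootsOfUnity G ℂ hne
    have hw1 : (χ (g i) ^ u) ^ (l ^ (A + a + 1)) ≠ 1 := by
      rw [← pow_mul, ← map_pow]
      exact hχ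
    have hw2 := pow_dvd_orderOf hl hw1 (hcard χ (g i))
    -- the element `z`
    have hz1 : ((χ (g i) ^ u) ^ (2 * l ^ a)) ^ (l ^ A) ≠ 1 := by
      intro h
      rw [← pow_mul] at h
      have h1 := hw2.trans (orderOf_dvd_of_pow_eq_one h)
      have h2 := Nat.le_of_dvd (by have := hl.pos; positivity) h1
      have h3 : 2 * l ^ a * l ^ A < l ^ (A + a + 1 + 1) := by
        have h4 : l ^ (A + a + 1 + 1) = (l * l) * (l ^ a * l ^ A) := by ring
        rw [h4, mul_assoc]
        apply Nat.mul_lt_mul_of_pos_right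
        · have := hl.two_le; nlinarith
        · have := hl.pos; positivity
      omega
    have hz2 : ((χ (g i) ^ u) ^ (2 * l ^ a)) ^ (l ^ e) = 1 := by
      rw [← pow_mul, mul_comm, pow_mul, hcard, one_pow]
    have hz3 := pow_dvd_orderOf hl hz1 hz2
    have hmem : (χ (g i) ^ u) ^ (2 * l ^ a) ∈ (f i).range := by
      refine ⟨χ, ?_⟩
      rw [hf, ← pow_mul]
      congr 1
      ring
    have hidx : (f i).ker.index = Nat.card (f i).range := Subgroup.index_ker _
    have hidx0 : (f i).ker.index ≠ 0 := hfin.index_ne_zero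
    have hdvd : orderOf ((χ (g i) ^ u) ^ (2 * l ^ a)) ∣ Nat.card (f i).range :=
      Subgroup.orderOf_dvd_natCard _ hmem
    rw [← hidx] at hdvd
    have h1 := Nat.le_of_dvd (Nat.pos_of_ne_zero hidx0) (hz3.trans hdvd)
    have h2 : l ^ A ≤ l ^ (A + 1) := Nat.pow_le_pow_right hl.pos (by omega)
    omega
  -- the character `φ ^ (2 u)`
  let ψ : G →* ℂˣ := φ ^ (2 * u)
  have hψ : ∀ x, ψ x = (φ x ^ u) ^ 2 := by
    intro x
    simp only [ψ, MonoidHom.pow_apply]
    rw [← pow_mul]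
    congr 1
    ring
  have hψe : ∀ x, ψ x ^ (l ^ e) = 1 := by
    intro x
    rw [hψ, ← pow_mul, mul_comm, pow_mul, hcard, one_pow]
  have hfinr : Finite ψ.range := by
    have : Finite (Set.range ψ) := Set.finite_range ψ
    exact this
  have hcyc : IsCyclic ψ.range := isCyclic_subgroup_units ψ.range
  have := Fact.mk hl
  have hp : IsPGroup l ψ.range := by
    rintro ⟨_, x, rfl⟩
    exact ⟨e, Subtype.ext (hψe x)⟩
  obtain ⟨b, hb⟩ := hp.exists_card_eq
  let E : ψ.range ≃* Multiplicative (ZMod (l ^ b)) := hb ▸ (zmodCyclicMulEquiv hcyc).symm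
  refine ⟨b, E.toMonoidHom.comp ψ.rangeRestrict, ?_, ?_, ?_⟩
  · exact E.surjective.comp ψ.rangeRestrict_surjective
  · intro x hx
    have : ψ.rangeRestrict x = 1 := by
      apply Subtype.ext
      change ψ x = 1
      rw [hψ, ← pow_mul, mul_comm, pow_mul, ← map_pow, hx, map_one, one_pow]
    simp only [MonoidHom.comp_apply, this, map_one]
  · intro i hi
    have h1 : orderOf ((E.toMonoidHom.comp ψ.rangeRestrict) (g i)) = orderOf (ψ (g i)) := by
      simp only [MonoidHom.comp_apply]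
      have : orderOf (E.toMonoidHom (ψ.rangeRestrict (g i))) = orderOf (ψ.rangeRestrict (g i)) :=
        E.orderOf_eq _
      rw [this, ← Subgroup.orderOf_coe]
      rfl
    rw [h1]
    refine pow_dvd_orderOf hl ?_ (hψe (g i))
    rw [hψ, ← pow_mul, ← pow_mul]
    rw [show u * (2 * l ^ a) = 2 * u * l ^ a by ring]
    exact hφ i hi

/-- Block [E]. -/
theorem exists_char {l : ℕ} (hl : l.Prime) (a : ℕ) (T P : Finset ℕ) (hT : ∀ t ∈ T, t ≠ 0)
    (hP : ∀ p ∈ P, 2 ≤ p) :
    ∃ m : ℕ, 0 < m ∧ Squarefree m ∧ (∀ t ∈ T, t.Coprime m) ∧ (∀ p ∈ P, p.Coprime m) ∧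
      ∃ (b : ℕ) (ψ : (ZMod m)ˣ →* Multiplicative (ZMod (l ^ b))),
        Function.Surjective ψ ∧ ψ (-1) = 1 ∧
          ∀ p ∈ P, ∀ h : p.Coprime m, l ^ (a + 1) ∣ orderOf (ψ (ZMod.unitOfCoprime p h)) := by
  classical
  obtain ⟨A, hA⟩ : ∃ A, P.card < l ^ A := ⟨P.card, Nat.lt_pow_self hl.one_lt⟩
  let B : Finset ℕ := (T ∪ P).biUnion Nat.primeFactors
  have hq : ∀ p : ℕ, ∃ q : ℕ, p ∈ P → q.Prime ∧ q ∉ B ∧
      l ^ (A + a + 2) ∣ orderOf (p : ZMod q) := by
    intro p
    by_cases hp : p ∈ P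
    · obtain ⟨q, hq, hqB, k, hk, ho⟩ :=
        exists_prime_orderOf_notMem hl (hP p hp) (A + a + 2) B
      exact ⟨q, fun _ => ⟨hq, hqB, ho ▸ pow_dvd_pow l hk⟩⟩
    · exact ⟨0, fun h => (hp h).elim⟩
  choose q hq using hq
  let Q : Finset ℕ := P.image q
  have hQ : ∀ r ∈ Q, r.Prime ∧ r ∉ B := by
    intro r hr
    obtain ⟨p, hp, rfl⟩ := Finset.mem_image.1 hr
    exact ⟨(hq p hp).1, (hq p hp).2.1⟩
  let m := ∏ r ∈ Q, r
  have hm0 : 0 < m := Finset.prod_pos fun r hr => (hQ r hr).1.pos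
  have hcop : ∀ t ∈ T ∪ P, t ≠ 0 → t.Coprime m := by
    intro t ht ht0
    apply Nat.Coprime.prod_right
    intro r hr
    refine ((Nat.Prime.coprime_iff_not_dvd (hQ r hr).1).2 ?_).symm
    intro hrt
    apply (hQ r hr).2
    exact Finset.mem_biUnion.2 ⟨t, ht, Nat.mem_primeFactors.2 ⟨(hQ r hr).1, hrt, ht0⟩⟩
  have hcopP : ∀ p ∈ P, p.Coprime m := fun p hp =>
    hcop p (Finset.mem_union_right _ hp) (by have := hP p hp; omega)
  have : NeZero m := ⟨hm0.ne'⟩
  have hsq : Squarefree m := by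
    apply Finset.squarefree_prod_of_pairwise_isCoprime
    · intro x hx y hy hxy
      exact Nat.coprime_iff_isRelPrime.1 ((Nat.coprime_primes (hQ x hx).1 (hQ y hy).1).2 hxy)
    · intro r hr
      exact (hQ r hr).1.prime.squarefree
  let g : ℕ → (ZMod m)ˣ := fun p => if h : p.Coprime m then ZMod.unitOfCoprime p h else 1
  have hg : ∀ i ∈ P, l ^ (A + a + 2) ∣ orderOf (g i) := by
    intro p hp
    have hqm : q p ∣ m := Finset.dvd_prod_of_mem _ (Finset.mem_image_of_mem q hp)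
    refine (hq p hp).2.2.trans ?_
    apply orderOf_dvd_of_pow_eq_one
    have h1 := pow_orderOf_eq_one (g p)
    have h2 := congrArg (fun z : (ZMod m)ˣ => (ZMod.castHom hqm (ZMod (q p))) (z : ZMod m)) h1
    simp only [Units.val_pow_eq_pow_val, map_pow, Units.val_one, map_one] at h2
    have h3 : ((g p : (ZMod m)ˣ) : ZMod m) = (p : ZMod m) := by
      rw [show g p = ZMod.unitOfCoprime p (hcopP p hp) from dif_pos (hcopP p hp),
        ZMod.coe_unitOfCoprime]
    rw [h3, map_natCast] at h2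
    exact h2
  obtain ⟨b, ψ, h1, h2, h3⟩ := exists_char_group hl a A P hA g hg
  refine ⟨m, hm0, hsq, fun t ht => hcop t (Finset.mem_union_left _ ht) (hT t ht), hcopP,
    b, ψ, h1, h2 _ (by simp), ?_⟩
  intro p hp h
  have := h3 p hp
  rwa [show g p = ZMod.unitOfCoprime p h from dif_pos h] at this

end Vale.Agent.P022.H851
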