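import Vale.Agent.P022.H567.Cft
import Vale.Agent.P022.H851.E

/-! Block [CYC] of P022-CFT (literal `CYCStmt` of `H567/Cft.lean`): characters of `(ℤ/M)ˣ` of
`ℓ`-power order, large at given integers, odd if `ℓ = 2`. -/

namespace Vale.Agent.P022.H851

open Finset
open scoped Pointwise

/-- `exists_char_group`, twisted by a character `θ` of exponent `l`. -/
theorem exists_char_group_tw {G ι : Type*} [CommGroup G] [Finite G] {l : ℕ} (hl : l.Prime)
    (a A : ℕ) (s : Finset ι) (hA : s.card < l ^ A) (g : ι → G)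
    (hg : ∀ i ∈ s, l ^ (A + (a + 1) + 2) ∣ orderOf (g i)) (θ : G →* ℂˣ)
    (hθ : ∀ x, θ x ^ l = 1) :
    ∃ (b : ℕ) (ψ : G →* Multiplicative (ZMod (l ^ b))), Function.Surjective ψ ∧
      (∀ x : G, x ^ 2 = 1 → (ψ x = 1 ↔ θ x = 1)) ∧ ∀ i ∈ s, l ^ (a + 2) ∣ orderOf (ψ (g i)) := by
  classical
  obtain ⟨b, ψ₀, _, h2, h3⟩ := exists_char_group hl (a + 1) A s hA g hg
  have hl0 : l ^ b ≠ 0 := pow_ne_zero _ hl.ne_zero
  have : NeZero (l ^ b) := ⟨hl0⟩
  -- embed `ℤ / l ^ b` into `ℂˣ`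
  have hcyc : IsCyclic (rootsOfUnity (l ^ b) ℂ) := inferInstance
  have hcard : Nat.card (rootsOfUnity (l ^ b) ℂ) = l ^ b := Complex.card_rootsOfUnity _
  let E : Multiplicative (ZMod (l ^ b)) ≃* rootsOfUnity (l ^ b) ℂ :=
    mulEquivOfCyclicCardEq (by
      rw [hcard, Nat.card_congr Multiplicative.toAdd, Nat.card_zmod])
  let φ : G →* ℂˣ := ((rootsOfUnity (l ^ b) ℂ).subtype.comp E.toMonoidHom).comp ψ₀
  have hφ1 : ∀ x, φ x = 1 ↔ ψ₀ x = 1 := by
    intro x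
    change ((E (ψ₀ x) : rootsOfUnity (l ^ b) ℂ) : ℂˣ) = 1 ↔ _
    rw [OneMemClass.coe_eq_one, MulEquiv.map_eq_one_iff]
  have hφe : ∀ x, φ x ^ (l ^ b) = 1 := fun x => (E (ψ₀ x)).2
  have hφo : ∀ x (k : ℕ), φ x ^ k = 1 ↔ ψ₀ x ^ k = 1 := by
    intro x k
    rw [← map_pow, ← map_pow]
    exact hφ1 _
  let ψ : G →* ℂˣ := φ * θ
  have hψ : ∀ x, ψ x = φ x * θ x := fun x => rfl
  have hψe : ∀ x, ψ x ^ (l ^ (b + 1)) = 1 := by
    intro x
    rw [hψ, mul_pow]
    rw [pow_succ, pow_mul, hφe, one_pow, one_mul, mul_comm, pow_mul, hθ, one_pow]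
  have hfinr : Finite ψ.range := by
    have : Finite (Set.range ψ) := Set.finite_range ψ
    exact this
  have hcyc' : IsCyclic ψ.range := isCyclic_subgroup_units ψ.range
  have := Fact.mk hl
  have hp : IsPGroup l ψ.range := by
    rintro ⟨_, x, rfl⟩
    exact ⟨b + 1, Subtype.ext (hψe x)⟩
  obtain ⟨c, hc⟩ := hp.exists_card_eq
  let F : ψ.range ≃* Multiplicative (ZMod (l ^ c)) := hc ▸ (zmodCyclicMulEquiv hcyc').symm
  have hF : ∀ x, F (ψ.rangeRestrict x) = 1 ↔ ψ x = 1 := by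
    intro x
    rw [MulEquiv.map_eq_one_iff]
    constructor
    · intro h
      have := congrArg Subtype.val h
      exact this
    · intro h
      exact Subtype.ext h
  refine ⟨c, F.toMonoidHom.comp ψ.rangeRestrict, ?_, ?_, ?_⟩
  · exact F.surjective.comp ψ.rangeRestrict_surjective
  · intro x hx
    refine (hF x).trans ?_
    rw [hψ, (hφ1 x).2 (h2 x hx), one_mul]
  · intro i hi
    have h1 : orderOf ((F.toMonoidHom.comp ψ.rangeRestrict) (g i)) = orderOf (ψ (g i)) := by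
      simp only [MonoidHom.comp_apply]
      have : orderOf (F.toMonoidHom (ψ.rangeRestrict (g i))) = orderOf (ψ.rangeRestrict (g i)) :=
        F.orderOf_eq _
      rw [this, ← Subgroup.orderOf_coe]
      rfl
    rw [h1]
    refine pow_dvd_orderOf hl ?_ (hψe (g i))
    rw [hψ, mul_pow]
    have h4 : θ (g i) ^ l ^ (a + 1) = 1 := by
      rw [pow_succ, mul_comm, pow_mul, hθ, one_pow]
    rw [h4, mul_one]
    intro h5
    have h6 := (h3 i hi).trans (orderOf_dvd_of_pow_eq_one ((hφo _ _).1 h5))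
    have h7 := (Nat.pow_dvd_pow_iff_le_right hl.one_lt).1 h6
    omega

theorem exists_char_odd {l : ℕ} (hl : l.Prime) (a : ℕ) (T P : Finset ℕ) (hT : ∀ t ∈ T, t ≠ 0)
    (hP : ∀ p ∈ P, 2 ≤ p) :
    ∃ m : ℕ, 0 < m ∧ Squarefree m ∧ (∀ t ∈ T, t.Coprime m) ∧ (∀ p ∈ P, p.Coprime m) ∧
      ∃ (b : ℕ) (ψ : (ZMod m)ˣ →* Multiplicative (ZMod (l ^ b))),
        Function.Surjective ψ ∧ (l = 2 → ψ (-1) ≠ 1) ∧ (l ≠ 2 → ψ (-1) = 1) ∧
          ∀ p ∈ P, ∀ h : p.Coprime m, l ^ (a + 1) ∣ orderOf (ψ (ZMod.unitOfCoprime p h)) := by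
  classical
  obtain ⟨A, hA⟩ : ∃ A, P.card < l ^ A := ⟨P.card, Nat.lt_pow_self hl.one_lt⟩
  let B : Finset ℕ := (T ∪ P).biUnion Nat.primeFactors
  have hq : ∀ p : ℕ, ∃ q : ℕ, p ∈ P → q.Prime ∧ q ∉ B ∧
      l ^ (A + (a + 1) + 2) ∣ orderOf (p : ZMod q) := by
    intro p
    by_cases hp : p ∈ P
    · obtain ⟨q, hq, hqB, k, hk, ho⟩ :=
        exists_prime_orderOf_notMem hl (hP p hp) (A + (a + 1) + 2) B
      exact ⟨q, fun _ => ⟨hq, hqB, ho ▸ pow_dvd_pow l hk⟩⟩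
    · exact ⟨0, fun h => (hp h).elim⟩
  choose q hq using hq
  obtain ⟨q₀, hq₀B, hq₀, hq₀4⟩ : ∃ q₀, q₀ ∉ B ∧ q₀.Prime ∧ (q₀ : ZMod 4) = 3 := by
    obtain ⟨q₀, h1, h2, h3⟩ := Nat.forall_exists_prime_gt_and_eq_mod (q := 4) (a := 3)
      (by decide) (B.sup id)
    refine ⟨q₀, fun h => ?_, h2, h3⟩
    have : q₀ ≤ B.sup id := Finset.le_sup (f := id) h
    omega
  let Q : Finset ℕ := insert q₀ (P.image q)
  have hQ : ∀ r ∈ Q, r.Prime ∧ r ∉ B := by
    intro r hr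
    rcases Finset.mem_insert.1 hr with rfl | hr
    · exact ⟨hq₀, hq₀B⟩
    obtain ⟨p, hp, rfl⟩ := Finset.mem_image.1 hr
    exact ⟨(hq p hp).1, (hq p hp).2.1⟩
  let m := ∏ r ∈ Q, r
  have hm0 : 0 < m := Finset.prod_pos fun r hr => (hQ r hr).1.pos
  have hcop : ∀ t ∈ T ∪ P, t ≠ 0 → t.Coprime m := by
    intro t ht ht0
    apply Nat.Coprime.prod_right
    intro r hr
    refine ((Nat.Prime.coprime_iff_not_dvd (hQ r hr).1).2 ?_).symm
    intro hrt
    apply (hQ r hr).2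
    exact Finset.mem_biUnion.2 ⟨t, ht, Nat.mem_primeFactors.2 ⟨(hQ r hr).1, hrt, ht0⟩⟩
  have hcopP : ∀ p ∈ P, p.Coprime m := fun p hp =>
    hcop p (Finset.mem_union_right _ hp) (by have := hP p hp; omega)
  have : NeZero m := ⟨hm0.ne'⟩
  have hsq : Squarefree m := by
    apply Finset.squarefree_prod_of_pairwise_isCoprime
    · intro x hx y hy hxy
      exact Nat.coprime_iff_isRelPrime.1 ((Nat.coprime_primes (hQ x hx).1 (hQ y hy).1).2 hxy)
    · intro r hr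
      exact (hQ r hr).1.prime.squarefree
  let g : ℕ → (ZMod m)ˣ := fun p => if h : p.Coprime m then ZMod.unitOfCoprime p h else 1
  have hg : ∀ i ∈ P, l ^ (A + (a + 1) + 2) ∣ orderOf (g i) := by
    intro p hp
    have hqm : q p ∣ m := Finset.dvd_prod_of_mem _
      (Finset.mem_insert_of_mem (Finset.mem_image_of_mem q hp))
    refine (hq p hp).2.2.trans ?_
    apply orderOf_dvd_of_pow_eq_one
    have h1 := pow_orderOf_eq_one (g p)
    have h2 := congrArg (fun z : (ZMod m)ˣ => (ZMod.castHom hqm (ZMod (q p))) (z : ZMod m)) h1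
    simp only [Units.val_pow_eq_pow_val, map_pow, Units.val_one, map_one] at h2
    have h3 : ((g p : (ZMod m)ˣ) : ZMod m) = (p : ZMod m) := by
      rw [show g p = ZMod.unitOfCoprime p (hcopP p hp) from dif_pos (hcopP p hp),
        ZMod.coe_unitOfCoprime]
    rw [h3, map_natCast] at h2
    exact h2
  have := Fact.mk hq₀
  have hq₀m : q₀ ∣ m := Finset.dvd_prod_of_mem _ (Finset.mem_insert_self _ _)
  have hq₀2 : q₀ ≠ 2 := by
    rintro rfl
    revert hq₀4
    decide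
  -- the quadratic character
  let θ₀ : (ZMod m)ˣ →* ℂˣ := ((Units.map (Int.castRingHom ℂ).toMonoidHom).comp
    (quadraticChar (ZMod q₀)).toUnitHom).comp (ZMod.unitsMap hq₀m)
  have hθ₀ : ∀ x, ((θ₀ x : ℂˣ) : ℂ) =
      ((quadraticChar (ZMod q₀) ((ZMod.unitsMap hq₀m x : (ZMod q₀)ˣ) : ZMod q₀) : ℤ) : ℂ) := by
    intro x
    simp only [θ₀, MonoidHom.comp_apply, Units.coe_map, MulChar.coe_toUnitHom]
    rfl
  let θ : (ZMod m)ˣ →* ℂˣ := if l = 2 then θ₀ else 1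
  have hθl : ∀ x, θ x ^ l = 1 := by
    intro x
    by_cases h : l = 2
    · simp only [θ, if_pos h, h]
      apply Units.ext
      rw [Units.val_pow_eq_pow_val, hθ₀, ← Int.cast_pow, quadraticChar_sq_one (Units.ne_zero _)]
      simp
    · simp only [θ, if_neg h, MonoidHom.one_apply, one_pow]
  obtain ⟨b, ψ, h1, h2, h3⟩ := exists_char_group_tw hl a A P hA g hg θ hθl
  refine ⟨m, hm0, hsq, fun t ht => hcop t (Finset.mem_union_left _ ht) (hT t ht), hcopP,
    b, ψ, h1, ?_, ?_, ?_⟩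
  · intro h hcon
    have h4 := (h2 (-1) (by simp)).1 hcon
    simp only [θ, if_pos h] at h4
    have h5 := congrArg (fun z : ℂˣ => (z : ℂ)) h4
    simp only [hθ₀, Units.val_one] at h5
    have h6 : ((ZMod.unitsMap hq₀m (-1) : (ZMod q₀)ˣ) : ZMod q₀) = -1 := by
      change (ZMod.castHom hq₀m (ZMod q₀)) ((-1 : (ZMod m)ˣ) : ZMod m) = -1
      rw [Units.val_neg, Units.val_one, map_neg, map_one]
    rw [h6] at h5
    have h7 : quadraticChar (ZMod q₀) (-1) = 1 := by exact_mod_cast h5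
    rw [quadraticChar_neg_one (by rwa [ZMod.ringChar_zmod_n]), ZMod.card, hq₀4] at h7
    revert h7
    decide
  · intro h
    exact (h2 (-1) (by simp)).2 (by simp only [θ, if_neg h, MonoidHom.one_apply])
  · intro p hp h
    have := h3 p hp
    rw [show g p = ZMod.unitOfCoprime p h from dif_pos h] at this
    exact (pow_dvd_pow l (by omega)).trans this

/-- Block [CYC]. -/
theorem CYC : C.CYCStmt := by
  classical
  intro l hl r A hA B hB
  obtain ⟨m, hm0, _, hmT, hmP, b, ψ, h1, h2, _, h3⟩ := exists_char_odd hl r {B} A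
    (by simpa using hB) hA
  have hex : ∀ (x : (ZMod m)ˣ), C.ex ψ (x : ZMod m) = Multiplicative.toAdd (ψ x) := by
    intro x
    unfold C.ex
    rw [dif_pos x.isUnit]
    congr 2
    exact Units.ext rfl
  refine ⟨m, b, ψ, hm0, (hmT B (by simp)).symm, h1, ?_, ?_⟩
  · intro a ha
    have hc := hmP a ha
    have h4 := hex (ZMod.unitOfCoprime a hc)
    rw [ZMod.coe_unitOfCoprime] at h4
    refine ⟨(ZMod.unitOfCoprime a hc).isUnit, ?_⟩
    intro i hi
    rw [h4, ← toAdd_pow] at hi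
    have h5 : ψ (ZMod.unitOfCoprime a hc) ^ i = 1 := hi
    have h6 := (h3 a ha hc).trans (orderOf_dvd_of_pow_eq_one h5)
    exact (pow_dvd_pow l (by omega)).trans h6
  · intro h hcon
    have h4 := hex (-1)
    rw [Units.val_neg, Units.val_one] at h4
    rw [h4] at hcon
    exact h2 h hcon

end Vale.Agent.P022.H851
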